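import Vale.Agent.P154.Small.Pointwise
import Vale.Agent.P154.Q3.Good3
import Vale.Agent.P154.Anti.Pot

/-!
# Three states: no reconstruction for mean offspring number at most three, every negative
edge parameter
-/

namespace Vale.Agent.P154.Small

open Finset Filter Topology Vale.Agent.P154.Tree Vale.Agent.P154.Q3

variable {ι κ : Type} {w : ℕ → ℝ} {d : ℝ}

theorem adm_half : Adm 3 (-1 / 2) := adm_of_range (by norm_num) (by norm_num) (by norm_num)

theorem flip_values (v : Fin 3 → ℝ) :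
    AOf (flipTri v) = AOf v ∧ f3 (flipTri v) = f3 v := by
  have hA := (flip_inv v).2.1
  have hp : PmOf (flipTri v) = PmOf v := by simp [PmOf, flipTri]; ring
  exact ⟨hA, by simp only [f3, sOf, hA, hp]⟩

theorem flip_shrink (lam : ℝ) (v : Fin 3 → ℝ) :
    flipTri (shrink lam v) = shrink lam (flipTri v) := by
  funext i
  fin_cases i <;> simp [flipTri, shrink]

theorem uniform_values : AOf (fun _ : Fin 3 => (1 : ℝ) / 3) = 0 ∧
    f3 (fun _ : Fin 3 => (1 : ℝ) / 3) = 0 := by
  constructor <;> simp only [f3, sOf, PmOf, AOf, cOf] <;> norm_num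

theorem homExt_f3_one : homExt f3 (fun _ : Fin 3 => (1 : ℝ)) = 0 := by
  simp only [homExt, sum_const, card_univ, Fintype.card_fin, nsmul_eq_mul, mul_one]
  norm_num [uniform_values.2]

theorem bddA : ∀ u : Fin 3 → ℝ, (∀ i, 0 ≤ u i) → ∑ i, u i = 1 → |AOf u| ≤ 1 := fun u h0 h1 => by
  obtain ⟨a, b, -⟩ := value_bounds (onSimplex_of h0 h1)
  rw [abs_of_nonneg a]
  exact b

theorem bddF : ∀ u : Fin 3 → ℝ, (∀ i, 0 ≤ u i) → ∑ i, u i = 1 → |f3 u| ≤ 12 :=
  fun u h0 h1 => (value_bounds (onSimplex_of h0 h1)).2.2.2.1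

theorem bddG : ∀ u : Fin 3 → ℝ, (∀ i, 0 ≤ u i) → ∑ i, u i = 1 → |g3 u| ≤ 3 := fun u h0 h1 => by
  obtain ⟨-, -, -, -, a, b⟩ := value_bounds (onSimplex_of h0 h1)
  rw [abs_of_nonneg a]
  exact b

theorem totA_eq {X : ι → Fin 3 → ℝ} (hX : IsChan X) :
    total (homExt AOf) X = 3 / 2 * total SS X := by
  rw [total, total, ← tsum_mul_left]
  refine tsum_congr fun o => ?_
  rcases eq_or_ne (∑ i, X o i) 0 with h | h
  · simp [homExt, SS, h]
  · obtain ⟨u0, u1⟩ := exists_unit (hX.nonneg o) h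
    simp only [homExt, SS]
    rw [A_eq_sqDev (onSimplex_of u0 u1).2]
    ring

theorem totF_ge {X : ι → Fin 3 → ℝ} (hX : IsChan X) :
    9 * total (homExt AOf) X ≤ total (homExt f3) X := by
  refine hasSum_le (fun o => ?_) ((hX.summable (massBdd_homExt bddA)).hasSum.mul_left 9)
    (hX.summable (massBdd_homExt bddF)).hasSum
  rcases eq_or_ne (∑ i, X o i) 0 with h | h
  · simp [homExt, h]
  · obtain ⟨u0, u1⟩ := exists_unit (hX.nonneg o) h
    have := mul_le_mul_of_nonneg_left (value_bounds (onSimplex_of u0 u1)).2.2.1 (hX.mass_nonneg o)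
    simp only [homExt]
    linarith

theorem totA_nonneg {X : ι → Fin 3 → ℝ} (hX : IsChan X) : 0 ≤ total (homExt AOf) X :=
  total_nonneg_fun hX fun _ hu => (value_bounds hu).1

theorem totG_nonneg {X : ι → Fin 3 → ℝ} (hX : IsChan X) : 0 ≤ total (homExt g3) X :=
  total_nonneg_fun hX fun _ hu => (value_bounds hu).2.2.2.2.1

/-- Subadditivity at edge parameter `-1/2`, with rate `1/3`. -/
theorem total_sub {X : ι → Fin 3 → ℝ} {Y : κ → Fin 3 → ℝ} (hX : IsChan X) (hY : IsChan Y)
    (hYs : IsSymm Y) :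
    total (homExt f3) (mulChan X (Tree.edge (-1 / 2) Y))
      ≤ total (homExt f3) X + 1 / 3 * total (homExt f3) Y
        - 2 / 9 * (total (homExt g3) X * total (homExt AOf) Y) := by
  let f : Fin 3 → (Fin 3 → ℝ) → ℝ := ![f3, fun _ => 1, g3]
  let g : Fin 3 → (Fin 3 → ℝ) → ℝ :=
    ![fun _ => 1 / 3 * 1, fun v => 1 / 9 * f3 v, fun v => -(2 / 9) * AOf v]
  have hf : ∀ l, ∀ u : Fin 3 → ℝ, (∀ i, 0 ≤ u i) → ∑ i, u i = 1 → |f l u| ≤ 12 := by
    intro l u u0 u1
    fin_cases l
    · exact bddF u u0 u1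
    · simp [f]
    · exact (bddG u u0 u1).trans (by norm_num)
  have hg : ∀ l, ∀ u : Fin 3 → ℝ, (∀ i, 0 ≤ u i) → ∑ i, u i = 1 → |g l u| ≤ 4 / 3 := by
    intro l u u0 u1
    have h1 := abs_le.1 (bddF u u0 u1)
    have h2 := abs_le.1 (bddA u u0 u1)
    fin_cases l <;> simp only [g] <;> rw [abs_le] <;> constructor <;> simp <;> linarith
  refine (total_mulEdge_le_simplex hX hY hYs adm_half bddF f g hf hg
    fun u v u0 u1 v0 v1 => ?_).trans_eq ?_
  · have hu := onSimplex_of u0 u1
    have hv := onSimplex_of v0 v1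
    have p1 := pointwise_sub hu hv
    have p2 := pointwise_sub hu (flip_onSimplex hv)
    rw [(flip_values v).1, (flip_values v).2, ← flip_shrink] at p2
    rw [sum_perm_three, show Nat.factorial 3 = 6 from rfl]
    push_cast
    simp [Fin.sum_univ_three, f, g]
    linarith
  · simp only [Fin.sum_univ_three, f, g, Matrix.cons_val_zero, Matrix.cons_val_one,
      Matrix.cons_val, total_const_mul, total_one hX, total_one hY]
    ring

/-- Two children give a positive total of `g3`. -/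
theorem total_two {Y : ι → Fin 3 → ℝ} (hY : IsChan Y) (hYs : IsSymm Y) :
    total (homExt AOf) Y ^ 2 / 3
      ≤ total (homExt g3) (mulChan (Tree.edge (-1 / 2) Y) (Tree.edge (-1 / 2) Y)) := by
  have hE := hY.edge' adm_half
  have hL := hasSum_avg hE hE (hYs.edge' (-1 / 2)) (massBdd_homExt bddG)
  have hR := hasSum_bilin hY hY (fun _ : Fin 1 => homExt AOf)
    (fun _ : Fin 1 => fun x => 1 / 3 * homExt AOf x) (fun _ => massBdd_homExt bddA) fun _ => by
      obtain ⟨K, hK⟩ := massBdd_homExt bddA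
      refine ⟨K / 3, fun x hx => ?_⟩
      have := hK x hx
      rw [abs_mul, abs_of_nonneg (by norm_num : (0 : ℝ) ≤ 1 / 3)]
      linarith
  simp only [Fin.sum_univ_one] at hR
  have key := hasSum_le (fun p => ?_) hR hL
  · have e : total (fun x : Fin 3 → ℝ => 1 / 3 * homExt AOf x) Y
        = 1 / 3 * total (homExt AOf) Y := tsum_mul_left
    rw [e, show Nat.factorial 3 = 6 from rfl] at key
    push_cast at key
    nlinarith
  obtain ⟨o, o'⟩ := p
  simp only [show Nat.factorial 3 = 6 from rfl]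
  push_cast
  have hx := hY.nonneg o
  have hy := hY.nonneg o'
  rcases eq_or_ne (∑ i, Y o i) 0 with h | h
  · have hx0 : ∀ i, Y o i = 0 := fun i =>
      (sum_eq_zero_iff_of_nonneg fun j _ => hx j).1 h i (mem_univ i)
    simp [homExt, edge_apply, hx0]
  rcases eq_or_ne (∑ i, Y o' i) 0 with h' | h'
  · have hy0 : ∀ i, Y o' i = 0 := fun i =>
      (sum_eq_zero_iff_of_nonneg fun j _ => hy j).1 h' i (mem_univ i)
    simp [homExt, edge_apply, hy0]
  obtain ⟨u0, u1⟩ := exists_unit hx h
  obtain ⟨v0, v1⟩ := exists_unit hy h'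
  have hu := onSimplex_of u0 u1
  have hv := onSimplex_of v0 v1
  have p1 := pointwise_two hu hv
  have p2 := pointwise_two hu (flip_onSimplex hv)
  rw [(flip_values _).1, ← flip_shrink] at p2
  have hs := sum_perm_three (shrink (-1 / 2) fun i => Y o i / ∑ j, Y o j)
    (shrink (-1 / 2) fun i => Y o' i / ∑ j, Y o' j) g3
  have key2 := mul_le_mul_of_nonneg_left
    (show 2 * (AOf (fun i => Y o i / ∑ j, Y o j) * AOf (fun i => Y o' i / ∑ j, Y o' j))
      ≤ ∑ s : Equiv.Perm (Fin 3), homExt g3 (fun i => shrink (-1 / 2) (fun i => Y o i / ∑ j, Y o j) i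
        * shrink (-1 / 2) (fun i => Y o' i / ∑ j, Y o' j) (s i)) by rw [hs]; linarith)
    (mul_nonneg (sum_nonneg fun i _ => hx i) (sum_nonneg fun i _ => hy i) :
      (0 : ℝ) ≤ (∑ i, Y o i) * ∑ i, Y o' i)
  rw [mul_sum (Finset.univ : Finset (Equiv.Perm (Fin 3)))] at key2
  refine le_trans (le_of_eq ?_) (key2.trans_eq (sum_congr rfl fun s _ => ?_))
  · simp only [homExt]
    ring
  · rw [← homExt_smul]
    congr 1
    funext i
    simp only [edge_apply, shrink]
    push_cast
    field_simp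

theorem piChan_two (Y : ι → Fin 3 → ℝ) (F : (Fin 3 → ℝ) → ℝ) :
    total F (piChan 2 Y) = total F (mulChan Y Y) := by
  have e : piChan 2 Y = fun f => mulChan Y Y ((finTwoArrowEquiv ι) f) := by
    funext f i
    simp [piChan, mulChan, Fin.prod_univ_two]
  rw [e, total_reindex]

/-- The products at a vertex. -/
theorem piChan_le {Y : ι → Fin 3 → ℝ} (hY : IsChan Y) (hYs : IsSymm Y) (k : ℕ) :
    total (homExt f3) (piChan k (Tree.edge (-1 / 2) Y))
      ≤ (k : ℝ) / 3 * total (homExt f3) Y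
        - (if 3 ≤ k then 2 / 27 * total (homExt AOf) Y ^ 3 else 0) := by
  have hE := hY.edge' adm_half
  have ha := totA_nonneg hY
  induction k with
  | zero => simp [total_piChan_zero, homExt_f3_one]
  | succ k ih =>
    have hX := isChan_piChan hE k
    have hstep := total_sub hX hY hYs
    have hnn := mul_nonneg (totG_nonneg hX) ha
    rw [piChan_succ, total_reindex]
    rcases k with _ | _ | _ | k
    · norm_num at ih ⊢
      linarith
    · norm_num at ih ⊢
      linarith
    · have h2 := mul_le_mul_of_nonneg_right (total_two hY hYs) ha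
      rw [← piChan_two (Tree.edge (-1 / 2) Y) (homExt g3)] at h2
      norm_num at ih h2 hstep ⊢
      nlinarith
    · rw [if_pos (by omega : 3 ≤ k + 1 + 1 + 1)] at ih
      rw [if_pos (by omega : 3 ≤ k + 1 + 1 + 1 + 1)]
      push_cast at ih ⊢
      linarith

/-- The probability of at least three children. -/
noncomputable def threeProb (w : ℕ → ℝ) : ℝ := ∑' k, if 3 ≤ k then w k else 0

theorem hasSum_three (hw : IsLaw w d) :
    HasSum (fun k : ℕ => if 3 ≤ k then w k else 0) (threeProb w) ∧ 0 ≤ threeProb w :=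
  ⟨(Summable.of_nonneg_of_le (fun k => by split_ifs <;> simp [hw.nonneg k])
      (fun k => by split_ifs <;> simp [hw.nonneg k]) hw.hasSum.summable).hasSum,
    tsum_nonneg fun k => by split_ifs <;> simp [hw.nonneg k]⟩

/-- One generation. -/
theorem step (hw : IsLaw w d) (n : ℕ) :
    total (homExt f3) (lik 3 w (-1 / 2) (n + 1))
      ≤ d / 3 * total (homExt f3) (lik 3 w (-1 / 2) n)
        - threeProb w * (2 / 27 * total (homExt AOf) (lik 3 w (-1 / 2) n) ^ 3) := by
  have hT := total_succ hw adm_half (massBdd_homExt bddF) n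
  have hR := (hw.mean.mul_right (1 / 3 * total (homExt f3) (lik 3 w (-1 / 2) n))).sub
    ((hasSum_three hw).1.mul_right (2 / 27 * total (homExt AOf) (lik 3 w (-1 / 2) n) ^ 3))
  refine (hasSum_le (fun k => ?_) hT hR).trans_eq (by ring)
  refine (mul_le_mul_of_nonneg_left (piChan_le (isChan_lik hw adm_half n)
    (isSymm_lik w (-1 / 2) n) k) (hw.nonneg k)).trans_eq ?_
  split_ifs <;> ring

theorem tendsto_half (hw : IsLaw w d) (hd : d < 3 ∨ (d ≤ 3 ∧ 0 < threeProb w)) :
    Tendsto (adv 3 w (-1 / 2)) atTop (𝓝 0) := by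
  refine Anti.tendsto_adv_of_SS (by norm_num) hw adm_half ?_
  set x : ℕ → ℝ := fun n => total (homExt f3) (lik 3 w (-1 / 2) n)
  set a : ℕ → ℝ := fun n => total (homExt AOf) (lik 3 w (-1 / 2) n)
  have ha : ∀ n, 0 ≤ a n := fun n => totA_nonneg (isChan_lik hw adm_half n)
  have hax : ∀ n, 9 * a n ≤ x n := fun n => totF_ge (isChan_lik hw adm_half n)
  have hd0 : 0 ≤ d := hw.mean.nonneg fun k => mul_nonneg (Nat.cast_nonneg k) (hw.nonneg k)
  have hW := (hasSum_three hw).2
  have hstep : ∀ n, x (n + 1) ≤ d / 3 * x n - threeProb w * (2 / 27 * a n ^ 3) :=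
    fun n => step hw n
  have hxn : ∀ n, 0 ≤ x n := fun n => by linarith [hax n, ha n]
  suffices hA : Tendsto a atTop (𝓝 0) by
    refine (by simpa using hA.const_mul (2 / 3 : ℝ) :
      Tendsto (fun n => 2 / 3 * a n) atTop (𝓝 0)).congr fun n => ?_
    simp only [a, totA_eq (isChan_lik hw adm_half n)]
    ring
  have hd1 : d / 3 ≤ 1 := by
    rcases hd with h | ⟨h, -⟩ <;> linarith
  have hdec : ∀ n, x (n + 1) ≤ x n := fun n => by
    nlinarith [hstep n, hxn n, mul_nonneg hW (pow_nonneg (ha n) 3)]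
  have hlim := tendsto_atTop_ciInf (antitone_nat_of_succ_le hdec)
    ⟨0, by rintro _ ⟨n, rfl⟩; exact hxn n⟩
  have hdiff : Tendsto (fun n => x n - x (n + 1)) atTop (𝓝 0) := by
    simpa using hlim.sub (hlim.comp (tendsto_add_atTop_nat 1))
  rcases hd with h | ⟨h, hp⟩
  · have hK : 0 < (1 - d / 3) * 9 := by linarith
    refine squeeze_zero ha (fun n => ?_) (by simpa using hdiff.div_const ((1 - d / 3) * 9))
    rw [le_div_iff₀ hK]
    nlinarith [hstep n, hax n, mul_nonneg hW (pow_nonneg (ha n) 3)]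
  · have hK : 0 < threeProb w * (2 / 27) := by positivity
    have hq : Tendsto (fun n => a n ^ 3) atTop (𝓝 0) := by
      refine squeeze_zero (fun n => pow_nonneg (ha n) 3) (fun n => ?_)
        (by simpa using hdiff.div_const (threeProb w * (2 / 27)))
      rw [le_div_iff₀ hK]
      nlinarith [hstep n, hxn n]
    refine tendsto_order.2 ⟨fun b hb => Eventually.of_forall fun n => lt_of_lt_of_le hb (ha n),
      fun b hb => ?_⟩
    filter_upwards [(tendsto_order.1 hq).2 (b ^ 3) (pow_pos hb 3)] with n hn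
    exact lt_of_pow_lt_pow_left₀ 3 hb.le hn

/-- Nonreconstruction for `lam ∈ [-1/2, 0]` and mean offspring number at most three. -/
theorem tendsto_adv_small {lam : ℝ} (hw : IsLaw w d) (h0 : -(1 / 2) ≤ lam) (h1 : lam ≤ 0)
    (hd : d < 3 ∨ (d ≤ 3 ∧ 0 < threeProb w)) : Tendsto (adv 3 w lam) atTop (𝓝 0) := by
  refine tendsto_adv_of_abs_le hw adm_half (by nlinarith) ?_ (tendsto_half hw hd)
  rw [abs_of_nonpos h1, abs_of_neg (by norm_num : (-1 / 2 : ℝ) < 0)]
  linarith

/-- The binary and the ternary tree. -/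
theorem regular_small {d : ℕ} (hd : d ≤ 3) {lam : ℝ} (h0 : -(1 / 2) ≤ lam) (h1 : lam ≤ 0) :
    Tendsto (adv 3 (regLaw d) lam) atTop (𝓝 0) := by
  refine tendsto_adv_small (isLaw_regLaw d) h0 h1 ?_
  rcases hd.lt_or_eq with h | h
  · left; exact_mod_cast h
  · subst h
    refine Or.inr ⟨by norm_num, ?_⟩
    have e : (fun k : ℕ => if 3 ≤ k then regLaw 3 k else 0)
        = fun k => if k = 3 then (1 : ℝ) else 0 := by
      funext k
      unfold regLaw
      rcases eq_or_ne k 3 with hk | hk <;> simp [hk]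
    rw [threeProb, e, tsum_ite_eq]
    exact one_pos

/-- Poisson trees with mean at most three. -/
theorem poisson_small {d : ℝ} (hd0 : 0 ≤ d) (hd : d ≤ 3) {lam : ℝ} (h0 : -(1 / 2) ≤ lam)
    (h1 : lam ≤ 0) : Tendsto (adv 3 (poissonLaw d) lam) atTop (𝓝 0) := by
  refine tendsto_adv_small (isLaw_poissonLaw hd0) h0 h1 ?_
  rcases hd0.eq_or_lt with e | e
  · left; rw [← e]; norm_num
  · refine Or.inr ⟨hd, ?_⟩
    have hw := isLaw_poissonLaw hd0
    refine (hasSum_three hw).1.summable.tsum_pos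
      (fun k => by split_ifs <;> simp [hw.nonneg k]) 3 ?_
    simp only [le_refl, if_true]
    unfold poissonLaw
    positivity

end Vale.Agent.P154.Small
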