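import Vale.Agent.P154.Small.Exprs
import Vale.Agent.P154.Q3.Certs

/-!
# The kernel checks at edge parameter `-1/2`
-/

namespace Vale.Agent.P154.Small

open Vale.Agent.P154.Q3

theorem cert_sub : check 110 10 10 14
    (subTriple Ex.num (su 0) (su 1) (su 2) (sv 0) (sv 1) (sv 2)) = true := by decide +kernel
theorem cert_sub' : check 110 10 10 14
    (subTriple Ex.num (su 0) (su 1) (su 2) (sv 0) (sv 2) (sv 1)) = true := by decide +kernel
theorem cert_two : check 110 10 10 14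
    (twoTriple Ex.num (su 0) (su 1) (su 2) (sv 0) (sv 1) (sv 2)) = true := by decide +kernel
theorem cert_two' : check 110 10 10 14
    (twoTriple Ex.num (su 0) (su 1) (su 2) (sv 0) (sv 2) (sv 1)) = true := by decide +kernel

theorem ev_subTriple (x : Fin 6 → ℝ) (a b c a' b' c' : Ex) :
    Ex.ev x (subTriple Ex.num a b c a' b' c') = subTriple kR (Ex.ev x a) (Ex.ev x b) (Ex.ev x c)
      (Ex.ev x a') (Ex.ev x b') (Ex.ev x c') := by
  simp [subTriple, subH, rotS, sq2, fP, gP, ev_sumT, ev_devT, ev_cubT, kR]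

theorem ev_twoTriple (x : Fin 6 → ℝ) (a b c a' b' c' : Ex) :
    Ex.ev x (twoTriple Ex.num a b c a' b' c') = twoTriple kR (Ex.ev x a) (Ex.ev x b) (Ex.ev x c)
      (Ex.ev x a') (Ex.ev x b') (Ex.ev x c') := by
  simp [twoTriple, twoH, rotS, sq2, fP, gP, ev_sumT, ev_devT, ev_cubT, kR]

/-- The polynomials on pairs of vectors. -/
def subVal (u w : Fin 3 → ℝ) : ℝ := subTriple kR (u 0) (u 1) (u 2) (w 0) (w 1) (w 2)
/-- See `subVal`. -/
def twoVal (u w : Fin 3 → ℝ) : ℝ := twoTriple kR (u 0) (u 1) (u 2) (w 0) (w 1) (w 2)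

theorem parts_rot (x y z : ℝ) : sumT y z x = sumT x y z ∧ fP kR y z x = fP kR x y z ∧
    gP kR y z x = gP kR x y z ∧ devT kR y z x = devT kR x y z := by
  refine ⟨?_, ?_, ?_, ?_⟩ <;> simp [fP, gP, cubT, devT, compT, prodT, sumT, kR] <;> ring

theorem parts_swap (x y z : ℝ) : sumT y x z = sumT x y z ∧ fP kR y x z = fP kR x y z ∧
    gP kR y x z = gP kR x y z ∧ devT kR y x z = devT kR x y z := by
  refine ⟨?_, ?_, ?_, ?_⟩ <;> simp [fP, gP, cubT, devT, compT, prodT, sumT, kR] <;> ring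

theorem parts_shift (x y z : ℝ) : sumT x z y = sumT x y z ∧ fP kR x z y = fP kR x y z ∧
    gP kR x z y = gP kR x y z ∧ devT kR x z y = devT kR x y z := by
  refine ⟨?_, ?_, ?_, ?_⟩ <;> simp [fP, gP, cubT, devT, compT, prodT, sumT, kR] <;> ring

theorem subH_perm (U fu gu W fw Aw S₀ a₀ S₁ a₁ S₂ a₂ : ℝ) :
    subH kR U fu gu W fw Aw S₁ a₁ S₂ a₂ S₀ a₀ = subH kR U fu gu W fw Aw S₀ a₀ S₁ a₁ S₂ a₂ ∧
    subH kR U fu gu W fw Aw S₀ a₀ S₂ a₂ S₁ a₁ = subH kR U fu gu W fw Aw S₀ a₀ S₁ a₁ S₂ a₂ := by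
  constructor <;> simp only [subH, rotS, sq2] <;> ring

theorem twoH_perm (U W Aw S₀ a₀ S₁ a₁ S₂ a₂ Au : ℝ) :
    twoH kR U W Aw S₁ a₁ S₂ a₂ S₀ a₀ Au = twoH kR U W Aw S₀ a₀ S₁ a₁ S₂ a₂ Au ∧
    twoH kR U W Aw S₀ a₀ S₂ a₂ S₁ a₁ Au = twoH kR U W Aw S₀ a₀ S₁ a₁ S₂ a₂ Au := by
  constructor <;> simp only [twoH, rotS, sq2] <;> ring

theorem subVal_inv : TriInv subVal := by
  constructor
  · intro u v
    simp only [subVal, subTriple, Matrix.cons_val_zero, Matrix.cons_val_one, Matrix.cons_val]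
    simp only [(parts_rot (u 0) (u 1) (u 2)).1, (parts_rot (u 0) (u 1) (u 2)).2.1,
      (parts_rot (u 0) (u 1) (u 2)).2.2.1, (parts_rot (v 0) (v 1) (v 2)).1,
      (parts_rot (v 0) (v 1) (v 2)).2.1, (parts_rot (v 0) (v 1) (v 2)).2.2.2]
    congr 1 <;> first | exact (parts_rot _ _ _).1 | exact (parts_rot _ _ _).2.1
  · intro u v
    simp only [subVal, subTriple, Matrix.cons_val_zero, Matrix.cons_val_one, Matrix.cons_val]
    simp only [(parts_swap (u 0) (u 1) (u 2)).1, (parts_swap (u 0) (u 1) (u 2)).2.1,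
      (parts_swap (u 0) (u 1) (u 2)).2.2.1, (parts_swap (v 0) (v 1) (v 2)).1,
      (parts_swap (v 0) (v 1) (v 2)).2.1, (parts_swap (v 0) (v 1) (v 2)).2.2.2]
    rw [← (subH_perm _ _ _ _ _ _ _ _ _ _ _ _).2]
    congr 1 <;> simp [fP, cubT, devT, compT, prodT, sumT, kR] <;> ring
  · intro u v
    simp only [subVal, subTriple, Matrix.cons_val_zero, Matrix.cons_val_one, Matrix.cons_val]
    simp only [(parts_rot (v 0) (v 1) (v 2)).1, (parts_rot (v 0) (v 1) (v 2)).2.1,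
      (parts_rot (v 0) (v 1) (v 2)).2.2.2]
    exact (subH_perm _ _ _ _ _ _ _ _ _ _ _ _).1

theorem twoVal_inv : TriInv twoVal := by
  constructor
  · intro u v
    simp only [twoVal, twoTriple, Matrix.cons_val_zero, Matrix.cons_val_one, Matrix.cons_val]
    simp only [(parts_rot (u 0) (u 1) (u 2)).1, (parts_rot (u 0) (u 1) (u 2)).2.2.2,
      (parts_rot (v 0) (v 1) (v 2)).1, (parts_rot (v 0) (v 1) (v 2)).2.2.2]
    congr 1 <;> first | exact (parts_rot _ _ _).1 | exact (parts_rot _ _ _).2.2.1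
  · intro u v
    simp only [twoVal, twoTriple, Matrix.cons_val_zero, Matrix.cons_val_one, Matrix.cons_val]
    simp only [(parts_swap (u 0) (u 1) (u 2)).1, (parts_swap (u 0) (u 1) (u 2)).2.2.2,
      (parts_swap (v 0) (v 1) (v 2)).1, (parts_swap (v 0) (v 1) (v 2)).2.2.2]
    rw [← (twoH_perm _ _ _ _ _ _ _ _ _ _).2]
    congr 1 <;> simp [gP, cubT, devT, compT, prodT, sumT, kR] <;> ring
  · intro u v
    simp only [twoVal, twoTriple, Matrix.cons_val_zero, Matrix.cons_val_one, Matrix.cons_val]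
    simp only [(parts_rot (v 0) (v 1) (v 2)).1, (parts_rot (v 0) (v 1) (v 2)).2.2.2]
    exact (twoH_perm _ _ _ _ _ _ _ _ _ _).1

theorem subVal_nonneg {u w : Fin 3 → ℝ} (hu : OnSimplex u) (hw : OnSimplex w) :
    0 ≤ subVal u w := by
  refine tri_nonneg subVal_inv ?_ ?_ u w hu hw
  all_goals
    intro a b c a' b' c' h1 h2 h3 h4 hu hv
    have hc : 0 ≤ c := by simpa using hu.1 2
    have hc' : 0 ≤ c' := by simpa using hv.1 2
    obtain ⟨e0, e1, e2, e3, e4, e5⟩ := ev_pt a b c a' b' c'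
  · have h := ev_nonneg_of_check cert_sub _ (pt_nonneg h1 h2 hc h3 h4 hc')
    rw [ev_subTriple, e0, e1, e2, e3, e4, e5] at h
    simpa [subVal] using h
  · have h := ev_nonneg_of_check cert_sub' _ (pt_nonneg h1 h2 hc h3 h4 hc')
    rw [ev_subTriple, e0, e1, e2, e3, e4, e5] at h
    simpa [subVal] using h

theorem twoVal_nonneg {u w : Fin 3 → ℝ} (hu : OnSimplex u) (hw : OnSimplex w) :
    0 ≤ twoVal u w := by
  refine tri_nonneg twoVal_inv ?_ ?_ u w hu hw
  all_goals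
    intro a b c a' b' c' h1 h2 h3 h4 hu hv
    have hc : 0 ≤ c := by simpa using hu.1 2
    have hc' : 0 ≤ c' := by simpa using hv.1 2
    obtain ⟨e0, e1, e2, e3, e4, e5⟩ := ev_pt a b c a' b' c'
  · have h := ev_nonneg_of_check cert_two _ (pt_nonneg h1 h2 hc h3 h4 hc')
    rw [ev_twoTriple, e0, e1, e2, e3, e4, e5] at h
    simpa [twoVal] using h
  · have h := ev_nonneg_of_check cert_two' _ (pt_nonneg h1 h2 hc h3 h4 hc')
    rw [ev_twoTriple, e0, e1, e2, e3, e4, e5] at h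
    simpa [twoVal] using h

end Vale.Agent.P154.Small
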