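import Vale.Agent.P154.Q3.Exprs

/-!
# The polynomials of the certificate at edge parameter `-1/2`

With `W = x' + y' + z'`, the vector `(W - x', W - y', W - z')` is twice the vector after the edge.
-/

namespace Vale.Agent.P154.Small

open Vale.Agent.P154.Q3

section Hom

variable {R : Type} [Add R] [Mul R] [Sub R] (k : ℤ → R)

/-- `11 A - 2 s`, homogenised to degree three. -/
def fP (x y z : R) : R := k 11 * (devT k x y z * sumT x y z) - cubT k x y z
/-- `A + 2 s`, homogenised to degree three. -/
def gP (x y z : R) : R := devT k x y z * sumT x y z + cubT k x y z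
/-- The square of a product. -/
def sq2 (a b : R) : R := (a * b) * (a * b)

variable (U fu gu W fw Aw S₀ a₀ S₁ a₁ S₂ a₂ Au : R)

/-- The rotation sum with cleared denominators. -/
def rotS : R := a₀ * sq2 S₁ S₂ + a₁ * sq2 S₂ S₀ + a₂ * sq2 S₀ S₁

/-- The subadditivity polynomial. -/
def subH : R :=
  k 2 * (((S₀ * S₀) * ((S₁ * S₁) * (S₂ * S₂))) *
      (k 3 * (fu * (W * (W * W))) + fw * (U * (U * U)) - k 2 * (gu * (Aw * W))))
    - k 3 * (rotS S₀ a₀ S₁ a₁ S₂ a₂ * sq2 U W)

/-- The polynomial for two shrunk vectors. -/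
def twoH : R :=
  k 16 * (rotS S₀ a₀ S₁ a₁ S₂ a₂ * sq2 U W)
    - k 64 * (((S₀ * S₀) * ((S₁ * S₁) * (S₂ * S₂))) * ((Au * U) * (Aw * W)))

/-- `subH` on a pair of triples. -/
def subTriple (x y z x' y' z' : R) : R :=
  let W := sumT x' y' z'
  let a := W - x'
  let b := W - y'
  let c := W - z'
  subH k (sumT x y z) (fP k x y z) (gP k x y z) W (fP k x' y' z') (devT k x' y' z')
    (sumT (x * a) (y * b) (z * c)) (fP k (x * a) (y * b) (z * c))
    (sumT (x * b) (y * c) (z * a)) (fP k (x * b) (y * c) (z * a))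
    (sumT (x * c) (y * a) (z * b)) (fP k (x * c) (y * a) (z * b))

/-- `twoH` on a pair of triples. -/
def twoTriple (x y z x' y' z' : R) : R :=
  let U := sumT x y z
  let l := U - x
  let m := U - y
  let n := U - z
  let W := sumT x' y' z'
  let a := W - x'
  let b := W - y'
  let c := W - z'
  twoH k U W (devT k x' y' z')
    (sumT (l * a) (m * b) (n * c)) (gP k (l * a) (m * b) (n * c))
    (sumT (l * b) (m * c) (n * a)) (gP k (l * b) (m * c) (n * a))
    (sumT (l * c) (m * a) (n * b)) (gP k (l * c) (m * a) (n * b))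
    (devT k x y z)

end Hom

end Vale.Agent.P154.Small
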