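import Vale.Agent.P154.Small.Certs
import Vale.Agent.P154.Q3.Pointwise

/-!
# The pointwise inequalities at edge parameter `-1/2`
-/

namespace Vale.Agent.P154.Small

open Vale.Agent.P154.Tree Vale.Agent.P154.Q3

/-- The potential `11 A - 2 s`. -/
def f3 (u : Fin 3 → ℝ) : ℝ := 11 * AOf u - sOf u

/-- The functional `A + 2 s`, nonnegative on the simplex. -/
def g3 (u : Fin 3 → ℝ) : ℝ := AOf u + sOf u

theorem schur (a b c : ℝ) (ha : 0 ≤ a) (hb : 0 ≤ b) (hc : 0 ≤ c) :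
    0 ≤ a * (a - b) * (a - c) + b * (b - a) * (b - c) + c * (c - a) * (c - b) := by
  rcases le_total a b with h | h <;> rcases le_total b c with h' | h' <;>
    rcases le_total a c with h'' | h'' <;>
    nlinarith [mul_nonneg ha hb, mul_nonneg hb hc, mul_nonneg ha hc,
      mul_nonneg (mul_nonneg ha (sub_nonneg.2 h)) (sub_nonneg.2 h''),
      sq_nonneg (a - b), sq_nonneg (b - c), sq_nonneg (a - c)]

theorem value_bounds {u : Fin 3 → ℝ} (hu : OnSimplex u) :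
    0 ≤ AOf u ∧ AOf u ≤ 1 ∧ 9 * AOf u ≤ f3 u ∧ |f3 u| ≤ 12 ∧ 0 ≤ g3 u ∧ g3 u ≤ 3 := by
  obtain ⟨hn, hs⟩ := hu
  have a0 := hn 0; have b0 := hn 1; have c0 := hn 2
  have hc := c_nonneg hn
  have hc1 := c_le_one ⟨hn, hs⟩
  have e : u 2 = 1 - u 0 - u 1 := by linarith
  have h1 : PmOf u ≤ cOf u := by
    have : 9 * (u 0 * u 1 * u 2) ≤ (u 0 * u 1 + u 1 * u 2 + u 2 * u 0) * (u 0 + u 1 + u 2) := by
      nlinarith [mul_nonneg a0 (sq_nonneg (u 1 - u 2)), mul_nonneg b0 (sq_nonneg (u 0 - u 2)),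
        mul_nonneg c0 (sq_nonneg (u 0 - u 1))]
    rw [hs, mul_one] at this
    simp only [PmOf, cOf]
    linarith
  have h2 : 0 ≤ PmOf u - 1 + 4 * AOf u := by
    have h := schur _ _ _ a0 b0 c0
    rw [e] at h
    simp only [PmOf, AOf, cOf, e]
    linarith
  have hA : 0 ≤ AOf u ∧ AOf u ≤ 1 := by simp only [AOf]; constructor <;> linarith
  have hs2 : sOf u ≤ 2 * AOf u := by simp only [sOf, AOf] at *; linarith
  have hs1 : -AOf u ≤ sOf u := by simp only [sOf] at *; linarith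
  refine ⟨hA.1, hA.2, by simp only [f3]; linarith, ?_, by simp only [g3]; linarith,
    by simp only [g3]; linarith⟩
  simp only [f3, abs_le]
  constructor <;> linarith

theorem shrink_half (w : Fin 3 → ℝ) :
    shrink (-1 / 2) w = fun i => (1 / 2) * (1 - w i) := by
  funext i
  simp [shrink]
  ring

theorem shrink_onSimplex {w : Fin 3 → ℝ} (hw : OnSimplex w) :
    OnSimplex (shrink (-1 / 2) w) := by
  obtain ⟨hn, hs⟩ := hw
  have := hn 0; have := hn 1; have := hn 2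
  rw [shrink_half]
  refine ⟨fun i => ?_, by simp only []; linarith⟩
  fin_cases i <;> simp <;> linarith

theorem c_shrink_pos {w : Fin 3 → ℝ} (hw : OnSimplex w) : 0 < cOf (shrink (-1 / 2) w) := by
  obtain ⟨hn, hs⟩ := hw
  have := hn 0; have := hn 1; have := hn 2
  rw [shrink_half]
  simp only [cOf]
  nlinarith

theorem homExt_parts (a b c : ℝ) (hS : sumT a b c ≠ 0) :
    homExt f3 ![a, b, c] = fP kR a b c / sumT a b c ^ 2 ∧
    homExt g3 ![a, b, c] = gP kR a b c / sumT a b c ^ 2 := by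
  have hS' : a + b + c ≠ 0 := hS
  constructor
  · rw [homExt_val]
    simp [f3, sOf, PmOf, AOf, cOf, fP, cubT, prodT, devT, compT, sumT, kR]
    field_simp
  · rw [homExt_val]
    simp [g3, sOf, PmOf, AOf, cOf, gP, cubT, prodT, devT, compT, sumT, kR]
    field_simp

theorem homExt_scale (f : (Fin 3 → ℝ) → ℝ) (r a b c : ℝ) :
    homExt f ![r * a, r * b, r * c] = r * homExt f ![a, b, c] := by
  have e : (![r * a, r * b, r * c] : Fin 3 → ℝ) = fun i => r * ![a, b, c] i := by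
    funext i; fin_cases i <;> rfl
  rw [e, homExt_smul]

theorem parts_simplex {u : Fin 3 → ℝ} (hu : OnSimplex u) :
    sumT (u 0) (u 1) (u 2) = 1 ∧ devT kR (u 0) (u 1) (u 2) = AOf u ∧
      fP kR (u 0) (u 1) (u 2) = f3 u ∧ gP kR (u 0) (u 1) (u 2) = g3 u := by
  have h := parts_eq (a := u 0) (b := u 1) (c := u 2) (by rw [eta3]; exact hu)
  rw [eta3] at h
  obtain ⟨e1, -, e3, -, e5⟩ := h
  refine ⟨e1, e3, ?_, ?_⟩ <;> simp [fP, gP, f3, g3, e1, e3, e5, kR]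

theorem pointwise_sub {u w : Fin 3 → ℝ} (hu : OnSimplex u) (hw : OnSimplex w) :
    tSum f3 u (shrink (-1 / 2) w) ≤ f3 u + 1 / 3 * f3 w - 2 / 3 * (g3 u * AOf w) := by
  have hv := shrink_onSimplex hw
  obtain ⟨a0, -, hw9, -, -, -⟩ := value_bounds hw
  rcases (c_nonneg hu.1).eq_or_lt with hc | hc
  · rw [tSum_point_left hu hc.symm hv]
    obtain ⟨-, -, -, -, -, g1⟩ := value_bounds hu
    nlinarith [mul_le_mul_of_nonneg_right g1 a0]
  have hp := mT_pos hu hv hc (c_shrink_pos hw)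
  have e0 : mT u (shrink (-1 / 2) w) 0
      = 1 / 2 * sumT (u 0 * (1 - w 0)) (u 1 * (1 - w 1)) (u 2 * (1 - w 2)) := by
    simp [mT, shrink_half, sumT]; ring
  have e1 : mT u (shrink (-1 / 2) w) 1
      = 1 / 2 * sumT (u 0 * (1 - w 1)) (u 1 * (1 - w 2)) (u 2 * (1 - w 0)) := by
    simp [mT, shrink_half, sumT]; ring
  have e2 : mT u (shrink (-1 / 2) w) 2
      = 1 / 2 * sumT (u 0 * (1 - w 2)) (u 1 * (1 - w 0)) (u 2 * (1 - w 1)) := by
    simp [mT, shrink_half, sumT]; ring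
  have hS0 := (mul_pos_iff_of_pos_left (by norm_num : (0 : ℝ) < 1 / 2)).1 (e0 ▸ hp 0)
  have hS1 := (mul_pos_iff_of_pos_left (by norm_num : (0 : ℝ) < 1 / 2)).1 (e1 ▸ hp 1)
  have hS2 := (mul_pos_iff_of_pos_left (by norm_num : (0 : ℝ) < 1 / 2)).1 (e2 ▸ hp 2)
  have t : tSum f3 u (shrink (-1 / 2) w)
      = 1 / 2 * homExt f3 ![u 0 * (1 - w 0), u 1 * (1 - w 1), u 2 * (1 - w 2)]
      + 1 / 2 * homExt f3 ![u 0 * (1 - w 1), u 1 * (1 - w 2), u 2 * (1 - w 0)]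
      + 1 / 2 * homExt f3 ![u 0 * (1 - w 2), u 1 * (1 - w 0), u 2 * (1 - w 1)] := by
    simp only [← homExt_scale, tSum, tw, shrink_half, Matrix.cons_val_zero, Matrix.cons_val_one,
      Matrix.cons_val]
    ring_nf
  rw [t, (homExt_parts _ _ _ hS0.ne').1, (homExt_parts _ _ _ hS1.ne').1,
    (homExt_parts _ _ _ hS2.ne').1]
  have h := subVal_nonneg hu hw
  obtain ⟨U1, -, Uf, Ug⟩ := parts_simplex hu
  obtain ⟨W1, Wd, Wf, -⟩ := parts_simplex hw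
  simp only [subVal, subTriple, U1, Uf, Ug, W1, Wd, Wf] at h
  generalize sumT (u 0 * (1 - w 0)) (u 1 * (1 - w 1)) (u 2 * (1 - w 2)) = S₀ at *
  generalize sumT (u 0 * (1 - w 1)) (u 1 * (1 - w 2)) (u 2 * (1 - w 0)) = S₁ at *
  generalize sumT (u 0 * (1 - w 2)) (u 1 * (1 - w 0)) (u 2 * (1 - w 1)) = S₂ at *
  generalize fP kR (u 0 * (1 - w 0)) (u 1 * (1 - w 1)) (u 2 * (1 - w 2)) = p₀ at *
  generalize fP kR (u 0 * (1 - w 1)) (u 1 * (1 - w 2)) (u 2 * (1 - w 0)) = p₁ at *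
  generalize fP kR (u 0 * (1 - w 2)) (u 1 * (1 - w 0)) (u 2 * (1 - w 1)) = p₂ at *
  have key : subH kR 1 (f3 u) (g3 u) 1 (f3 w) (AOf w) S₀ p₀ S₁ p₁ S₂ p₂
      = 6 * (S₀ * S₁ * S₂) ^ 2 * ((f3 u + 1 / 3 * f3 w - 2 / 3 * (g3 u * AOf w))
        - (1 / 2 * (p₀ / S₀ ^ 2) + 1 / 2 * (p₁ / S₁ ^ 2) + 1 / 2 * (p₂ / S₂ ^ 2))) := by
    simp only [subH, rotS, sq2, kR]
    push_cast
    field_simp
    ring
  rw [key] at h
  have hpos : (0 : ℝ) < 6 * (S₀ * S₁ * S₂) ^ 2 := by positivity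
  linarith [(mul_nonneg_iff_of_pos_left hpos).1 h]

theorem pointwise_two {u w : Fin 3 → ℝ} (hu : OnSimplex u) (hw : OnSimplex w) :
    AOf u * AOf w ≤ tSum g3 (shrink (-1 / 2) u) (shrink (-1 / 2) w) := by
  have hv := shrink_onSimplex hw
  have hp := mT_pos (shrink_onSimplex hu) hv (c_shrink_pos hu) (c_shrink_pos hw)
  have e0 : mT (shrink (-1 / 2) u) (shrink (-1 / 2) w) 0 = 1 / 4
      * sumT ((1 - u 0) * (1 - w 0)) ((1 - u 1) * (1 - w 1)) ((1 - u 2) * (1 - w 2)) := by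
    simp [mT, shrink_half, sumT]; ring
  have e1 : mT (shrink (-1 / 2) u) (shrink (-1 / 2) w) 1 = 1 / 4
      * sumT ((1 - u 0) * (1 - w 1)) ((1 - u 1) * (1 - w 2)) ((1 - u 2) * (1 - w 0)) := by
    simp [mT, shrink_half, sumT]; ring
  have e2 : mT (shrink (-1 / 2) u) (shrink (-1 / 2) w) 2 = 1 / 4
      * sumT ((1 - u 0) * (1 - w 2)) ((1 - u 1) * (1 - w 0)) ((1 - u 2) * (1 - w 1)) := by
    simp [mT, shrink_half, sumT]; ring
  have hS0 := (mul_pos_iff_of_pos_left (by norm_num : (0 : ℝ) < 1 / 4)).1 (e0 ▸ hp 0)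
  have hS1 := (mul_pos_iff_of_pos_left (by norm_num : (0 : ℝ) < 1 / 4)).1 (e1 ▸ hp 1)
  have hS2 := (mul_pos_iff_of_pos_left (by norm_num : (0 : ℝ) < 1 / 4)).1 (e2 ▸ hp 2)
  have t : tSum g3 (shrink (-1 / 2) u) (shrink (-1 / 2) w)
      = 1 / 4 * homExt g3 ![(1 - u 0) * (1 - w 0), (1 - u 1) * (1 - w 1), (1 - u 2) * (1 - w 2)]
      + 1 / 4 * homExt g3 ![(1 - u 0) * (1 - w 1), (1 - u 1) * (1 - w 2), (1 - u 2) * (1 - w 0)]
      + 1 / 4 * homExt g3 ![(1 - u 0) * (1 - w 2), (1 - u 1) * (1 - w 0),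
          (1 - u 2) * (1 - w 1)] := by
    simp only [← homExt_scale, tSum, tw, shrink_half, Matrix.cons_val_zero, Matrix.cons_val_one,
      Matrix.cons_val]
    ring_nf
  rw [t, (homExt_parts _ _ _ hS0.ne').2, (homExt_parts _ _ _ hS1.ne').2,
    (homExt_parts _ _ _ hS2.ne').2]
  have h := twoVal_nonneg hu hw
  obtain ⟨U1, Ud, -, -⟩ := parts_simplex hu
  obtain ⟨W1, Wd, -, -⟩ := parts_simplex hw
  simp only [twoVal, twoTriple, U1, Ud, W1, Wd] at h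
  generalize sumT ((1 - u 0) * (1 - w 0)) ((1 - u 1) * (1 - w 1)) ((1 - u 2) * (1 - w 2)) = S₀ at *
  generalize sumT ((1 - u 0) * (1 - w 1)) ((1 - u 1) * (1 - w 2)) ((1 - u 2) * (1 - w 0)) = S₁ at *
  generalize sumT ((1 - u 0) * (1 - w 2)) ((1 - u 1) * (1 - w 0)) ((1 - u 2) * (1 - w 1)) = S₂ at *
  generalize gP kR ((1 - u 0) * (1 - w 0)) ((1 - u 1) * (1 - w 1)) ((1 - u 2) * (1 - w 2)) = p₀ at *
  generalize gP kR ((1 - u 0) * (1 - w 1)) ((1 - u 1) * (1 - w 2)) ((1 - u 2) * (1 - w 0)) = p₁ at *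
  generalize gP kR ((1 - u 0) * (1 - w 2)) ((1 - u 1) * (1 - w 0)) ((1 - u 2) * (1 - w 1)) = p₂ at *
  have key : twoH kR 1 1 (AOf w) S₀ p₀ S₁ p₁ S₂ p₂ (AOf u)
      = 64 * (S₀ * S₁ * S₂) ^ 2 * ((1 / 4 * (p₀ / S₀ ^ 2) + 1 / 4 * (p₁ / S₁ ^ 2)
        + 1 / 4 * (p₂ / S₂ ^ 2)) - AOf u * AOf w) := by
    simp only [twoH, rotS, sq2, kR]
    push_cast
    field_simp
    ring
  rw [key] at h
  have hpos : (0 : ℝ) < 64 * (S₀ * S₁ * S₂) ^ 2 := by positivity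
  linarith [(mul_nonneg_iff_of_pos_left hpos).1 h]

end Vale.Agent.P154.Small
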